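import Mathlib

/-!
# P243: two fans of lines covering the tetrahedron `|x| ≤ 1 - w, |y| ≤ w`

The line with parameters `(s, t)` of the first fan is
`x ↦ (x, s * t + m / 2 * (1 + s ^ 2) * x, t + m * s * x)`; the second fan is obtained by
`(x, y, w, m) ↦ (y, x, 1 - w, -m)`.
-/

namespace Vale.Agent.P243.Fan

noncomputable section

/-- The length of the lines kept in a fan. -/
def tau (m s : ℝ) : ℝ := 1 / 2 + m ^ 2 / 4 * (s ^ 2 + s ^ 4) + 4 * m ^ 3

/-- Every point of the tetrahedron lies on a line of a fan, at a nonnegative parameter. -/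
lemma lift (m x y w : ℝ) (hy : |y| ≤ w) :
    ∃ s t : ℝ, |s| ≤ 1 ∧ 0 ≤ t ∧ w = t + m * s * x ∧
      y = s * t + m / 2 * (1 + s ^ 2) * x := by
  have hw : 0 ≤ w := (abs_nonneg y).trans hy
  obtain ⟨a, ha⟩ : ∃ a, a = m * x := ⟨_, rfl⟩
  obtain ⟨hy1, hy2⟩ := abs_le.1 hy
  by_cases ha0 : a = 0
  · rcases hw.eq_or_lt with h | h
    · refine ⟨0, 0, by simp, le_rfl, by simp [← h], ?_⟩
      have : y = 0 := by linarith
      linear_combination this + (1 / 2 : ℝ) * ha - (1 / 2 : ℝ) * ha0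
    · refine ⟨y / w, w, ?_, hw, ?_, ?_⟩
      · rw [abs_div, abs_of_pos h, div_le_one h]
        exact hy
      · linear_combination (y / w) * ha - (y / w) * ha0
      · have : y / w * w = y := div_mul_cancel₀ y h.ne'
        linear_combination -this + (1 / 2 : ℝ) * (1 + (y / w) ^ 2) * ha
          - (1 / 2 : ℝ) * (1 + (y / w) ^ 2) * ha0
  · obtain ⟨d, hd⟩ : ∃ d, d = w ^ 2 + a ^ 2 - 2 * a * y := ⟨_, rfl⟩
    have hay : |a * y| ≤ |a| * w := by
      rw [abs_mul]; exact mul_le_mul_of_nonneg_left hy (abs_nonneg a)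
    rw [abs_le] at hay
    have hlo : (w - |a|) ^ 2 ≤ d := by nlinarith [sq_abs a]
    have hhi : d ≤ (w + |a|) ^ 2 := by nlinarith [sq_abs a]
    have hd0 : 0 ≤ d := le_trans (sq_nonneg _) hlo
    obtain ⟨t, ht⟩ : ∃ t, t = √d := ⟨_, rfl⟩
    have ht0 : 0 ≤ t := ht ▸ Real.sqrt_nonneg d
    have ht2 : t ^ 2 = d := by rw [ht, Real.sq_sqrt hd0]
    have h1 : |w - t| ≤ |a| := by
      have h2 : t ≤ w + |a| := by
        rw [ht, Real.sqrt_le_left (by positivity)]; exact hhi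
      have h3 : w - |a| ≤ t := by
        by_contra h
        nlinarith [not_le.1 h]
      exact abs_le.2 ⟨by linarith, by linarith⟩
    refine ⟨(w - t) / a, t, ?_, ht0, ?_, ?_⟩
    · rw [abs_div, div_le_one (abs_pos.2 ha0)]
      exact h1
    · have : (w - t) / a * a = w - t := div_mul_cancel₀ _ ha0
      linear_combination -this + (w - t) / a * ha
    · have e : m / 2 * (1 + ((w - t) / a) ^ 2) * x = a / 2 * (1 + ((w - t) / a) ^ 2) := by
        rw [ha]; ring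
      rw [e]
      field_simp
      nlinarith

lemma scaled_le {q t m : ℝ} (h0 : 0 ≤ q) (h1 : q ≤ 1) (hm : 0 ≤ m) (ht : t ≤ 1 / 2 + m) :
    q * t ≤ q * (1 / 2) + m := by
  have := mul_le_mul_of_nonneg_left ht h0
  have := mul_le_mul_of_nonneg_right h1 hm
  linarith

lemma cross_le_four {s p a b : ℝ} (hs : s ^ 2 ≤ 1) (hp : p ^ 2 ≤ 1) (ha : a ≤ 1) (hb : b ≤ 1) :
    a * (1 + p ^ 2) + b * (1 + s ^ 2) ≤ 4 := by
  have := mul_le_mul_of_nonneg_right ha (show 0 ≤ 1 + p ^ 2 by positivity)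
  have := mul_le_mul_of_nonneg_right hb (show 0 ≤ 1 + s ^ 2 by positivity)
  linarith

lemma cross_le {s p a b m : ℝ} (hm : 0 ≤ m) (hs : s ^ 2 ≤ 1) (hp : p ^ 2 ≤ 1)
    (ha : a ≤ s ^ 2 / 2 + 2 * m) (hb : b ≤ p ^ 2 / 2 + 2 * m) :
    a * (1 + p ^ 2) + b * (1 + s ^ 2) ≤ (s ^ 2 + s ^ 4 + p ^ 2 + p ^ 4) / 2 + 8 * m := by
  have := mul_le_mul_of_nonneg_right ha (show 0 ≤ 1 + p ^ 2 by positivity)
  have := mul_le_mul_of_nonneg_right hb (show 0 ≤ 1 + s ^ 2 by positivity)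
  have := mul_le_mul_of_nonneg_left hs hm
  have := mul_le_mul_of_nonneg_left hp hm
  nlinarith [sq_nonneg (s ^ 2 - p ^ 2)]

/-- The two fans, cut at `tau`, overlap. -/
lemma reach {m x y w s t p r : ℝ} (hm : 0 < m) (hm1 : m ≤ 1 / 8) (hx : |x| ≤ 1) (hy : |y| ≤ 1)
    (hs : |s| ≤ 1) (hp : |p| ≤ 1) (h1 : w = t + m * s * x)
    (h2 : y = s * t + m / 2 * (1 + s ^ 2) * x) (h3 : 1 - w = r + -m * p * y)
    (h4 : x = p * r + -m / 2 * (1 + p ^ 2) * y) : t ≤ tau m s ∨ r ≤ tau m p := by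
  by_contra! hcon
  obtain ⟨ht, hr⟩ := hcon
  simp only [tau] at ht hr
  have hq : 0 ≤ m ^ 2 / 4 * (s ^ 2 + s ^ 4) := by positivity
  have hq' : 0 ≤ m ^ 2 / 4 * (p ^ 2 + p ^ 4) := by positivity
  have hm3 : 0 < m ^ 3 := by positivity
  obtain ⟨e, he⟩ : ∃ e, e = s * x - p * y := ⟨_, rfl⟩
  have hsum : (t - 1 / 2) + (r - 1 / 2) = -(m * e) := by
    rw [he]; linear_combination -h1 - h3
  have hsx : |s * x| ≤ 1 := by rw [abs_mul]; exact mul_le_one₀ hs (abs_nonneg x) hx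
  have hpy : |p * y| ≤ 1 := by rw [abs_mul]; exact mul_le_one₀ hp (abs_nonneg y) hy
  have hs2 : s ^ 2 ≤ 1 := (sq_le_one_iff_abs_le_one s).2 hs
  have hp2 : p ^ 2 ≤ 1 := (sq_le_one_iff_abs_le_one p).2 hp
  have hsy : |s * y| ≤ 1 := by rw [abs_mul]; exact mul_le_one₀ hs (abs_nonneg y) hy
  have hpx : |p * x| ≤ 1 := by rw [abs_mul]; exact mul_le_one₀ hp (abs_nonneg x) hx
  have hexp : e = s * p * (r - t) - m / 2 * (s * y * (1 + p ^ 2) + p * x * (1 + s ^ 2)) := by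
    rw [he]; linear_combination s * h4 - p * h2
  rw [abs_le] at hsx hpy hsy hpx
  have hsy' : s * y ≤ 1 := hsy.2
  have hpx' : p * x ≤ 1 := hpx.2
  have he2 : -2 ≤ e := by linarith
  -- first bootstrap
  have hrt : |r - t| ≤ 2 * m := by
    have : m * -2 ≤ m * e := mul_le_mul_of_nonneg_left he2 hm.le
    exact abs_le.2 ⟨by linarith, by linarith⟩
  have hsp : |s * p| ≤ 1 := by rw [abs_mul]; exact mul_le_one₀ hs (abs_nonneg p) hp
  have hsp' : |s * p * (r - t)| ≤ |r - t| := by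
    rw [abs_mul]; exact mul_le_of_le_one_left (abs_nonneg _) hsp
  have he4 : -(4 * m) ≤ e := by
    have h5 : s * y * (1 + p ^ 2) + p * x * (1 + s ^ 2) ≤ 4 := cross_le_four hs2 hp2 hsy' hpx'
    have h6 := mul_le_mul_of_nonneg_left h5 (half_pos hm).le
    rw [hexp]
    linarith [neg_abs_le (s * p * (r - t))]
  -- second bootstrap
  have hme : m * -(4 * m) ≤ m * e := mul_le_mul_of_nonneg_left he4 hm.le
  have hrt2 : |r - t| ≤ 4 * m ^ 2 := abs_le.2 ⟨by linarith, by linarith⟩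
  have hmm : 4 * m ^ 2 ≤ m := by nlinarith
  have hy' : s * y ≤ s ^ 2 / 2 + 2 * m := by
    have h5 : s * y = s ^ 2 * t + m / 2 * (1 + s ^ 2) * (s * x) := by rw [h2]; ring
    have h6 : s ^ 2 * t ≤ s ^ 2 * (1 / 2) + m := scaled_le (sq_nonneg s) hs2 (by linarith) (by linarith)
    have h7 : m / 2 * (1 + s ^ 2) * (s * x) ≤ m / 2 * (1 + s ^ 2) * 1 :=
      mul_le_mul_of_nonneg_left hsx.2 (by positivity)
    linarith [mul_le_mul_of_nonneg_left hs2 hm.le]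
  have hx' : p * x ≤ p ^ 2 / 2 + 2 * m := by
    have h5 : p * x = p ^ 2 * r + -m / 2 * (1 + p ^ 2) * (p * y) := by rw [h4]; ring
    have h6 : p ^ 2 * r ≤ p ^ 2 * (1 / 2) + m := scaled_le (sq_nonneg p) hp2 (by linarith) (by linarith)
    have h7 : m / 2 * (1 + p ^ 2) * -(p * y) ≤ m / 2 * (1 + p ^ 2) * 1 :=
      mul_le_mul_of_nonneg_left (by linarith) (by positivity)
    linarith [mul_le_mul_of_nonneg_left hp2 hm.le]
  have h8 := cross_le hm.le hs2 hp2 hy' hx'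
  have h9 := mul_le_mul_of_nonneg_left h8 (half_pos hm).le
  have h10 : -(4 * m ^ 2) - m / 2 * ((s ^ 2 + s ^ 4 + p ^ 2 + p ^ 4) / 2 + 8 * m) ≤ e := by
    rw [hexp]
    linarith [neg_abs_le (s * p * (r - t))]
  have h11 := mul_le_mul_of_nonneg_left h10 hm.le
  linarith [hsum]

/-- Every point of the tetrahedron lies on a short enough line of one of the two fans. -/
lemma fans {m x y w : ℝ} (hm : 0 < m) (hm1 : m ≤ 1 / 8) (hx : |x| ≤ 1 - w) (hy : |y| ≤ w) :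
    (∃ s t : ℝ, |s| ≤ 1 ∧ 0 ≤ t ∧ t ≤ tau m s ∧ w = t + m * s * x ∧
      y = s * t + m / 2 * (1 + s ^ 2) * x) ∨
    (∃ s t : ℝ, |s| ≤ 1 ∧ 0 ≤ t ∧ t ≤ tau m s ∧ 1 - w = t + -m * s * y ∧
      x = s * t + -m / 2 * (1 + s ^ 2) * y) := by
  obtain ⟨s, t, hs, ht, h1, h2⟩ := lift m x y w hy
  obtain ⟨p, r, hp, hr, h3, h4⟩ := lift (-m) y x (1 - w) hx
  have hx1 : |x| ≤ 1 := by linarith [abs_nonneg y]
  have hy1 : |y| ≤ 1 := by linarith [abs_nonneg x]
  rcases reach hm hm1 hx1 hy1 hs hp h1 h2 h3 h4 with h | h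
  · exact Or.inl ⟨s, t, hs, ht, h, h1, h2⟩
  · exact Or.inr ⟨p, r, hp, hr, h, h3, h4⟩

end

end Vale.Agent.P243.Fan
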