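import Vale.Agent.P243.Bundle.Area
import Vale.Agent.P243.Coplanar.Frame

/-!
# P243: Euclidean areas of projected triangles and cylinders on triangles
-/

namespace Vale.Agent.P243.Fan

open MeasureTheory Set Module
open Vale.Agent.P243.Bundle (E3 plane projPlane planeArea tri mat mat_apply volume_mat_image
  volume_translate_image volume_line_zero half_le_volume_tri)
open Vale.Agent.P243.Coplanar (exists_coords)
open scoped ENNReal RealInnerProductSpace

noncomputable section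

/-- The cross product. -/
def cross (v w : E3) : E3 :=
  !₂[v 1 * w 2 - v 2 * w 1, v 2 * w 0 - v 0 * w 2, v 0 * w 1 - v 1 * w 0]

/-- The triangle with corner `c` and edge vectors `p`, `q`. -/
def triangle (c p q : E3) : Set E3 := (fun v : ℝ × ℝ => c + (v.1 • p + v.2 • q)) '' tri

lemma isCompact_tri : IsCompact tri := by
  refine (isCompact_Icc.prod isCompact_Icc : IsCompact (Icc (0 : ℝ) 1 ×ˢ Icc (0 : ℝ) 1))
    |>.of_isClosed_subset ?_ ?_
  · simp only [tri]
    exact (isClosed_le continuous_const continuous_fst).inter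
      ((isClosed_le continuous_const continuous_snd).inter
        (isClosed_le (continuous_fst.add continuous_snd) continuous_const))
  · rintro v ⟨ha, hb, hc⟩
    exact ⟨⟨ha, by linarith⟩, hb, by linarith⟩

lemma volume_tri : volume tri = ENNReal.ofReal (1 / 2) := by
  refine le_antisymm ?_ half_le_volume_tri
  obtain ⟨U, hU⟩ : ∃ U, U = (fun v : ℝ × ℝ => ((1 : ℝ), (1 : ℝ)) + v) '' (mat (-1) 0 0 (-1) '' tri) :=
    ⟨_, rfl⟩
  have hUm : NullMeasurableSet U volume :=
    hU ▸ ((isCompact_tri.image (LinearMap.continuous_of_finiteDimensional _)).image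
      (by fun_prop)).measurableSet.nullMeasurableSet
  have hUv : volume U = volume tri := by
    rw [hU, volume_translate_image, volume_mat_image]; norm_num
  have hd : AEDisjoint volume tri U := by
    have h0 : volume ((fun v : ℝ × ℝ => ((0 : ℝ), (1 : ℝ)) + v) '' (mat 1 0 (-1) 0 '' univ)) = 0 := by
      rw [volume_translate_image, volume_mat_image]; norm_num
    refine measure_mono_null ?_ h0
    rintro w ⟨⟨-, -, hw⟩, hw'⟩
    rw [hU] at hw'
    obtain ⟨v₁, ⟨v, ⟨-, -, hv⟩, rfl⟩, rfl⟩ := hw'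
    simp only [mat_apply, Prod.mk_add_mk] at hw ⊢
    refine ⟨_, ⟨(1 + (-1 * v.1 + 0 * v.2), 0), mem_univ _, rfl⟩, ?_⟩
    simp only [mat_apply, Prod.mk_add_mk, Prod.mk.injEq]
    constructor
    · ring
    · linarith
  have hsub : tri ∪ U ⊆ Icc (0 : ℝ) 1 ×ˢ Icc (0 : ℝ) 1 := by
    rw [hU]
    rintro w (⟨ha, hb, hc⟩ | ⟨v₁, ⟨v, ⟨ha, hb, hc⟩, rfl⟩, rfl⟩)
    · exact ⟨⟨ha, by linarith⟩, hb, by linarith⟩
    · simp only [mat_apply, Prod.mk_add_mk, mem_prod, mem_Icc]
      refine ⟨⟨?_, ?_⟩, ?_, ?_⟩ <;> linarith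
  have h1 : volume tri + volume tri ≤ 1 :=
    calc volume tri + volume tri = volume tri + volume U := by rw [hUv]
      _ = volume (tri ∪ U) := (measure_union₀ hUm hd).symm
      _ ≤ volume (Icc (0 : ℝ) 1 ×ˢ Icc (0 : ℝ) 1) := measure_mono hsub
      _ = 1 := by
          rw [Measure.volume_eq_prod, Measure.prod_prod, Real.volume_Icc]; norm_num
  have ht : volume tri ≠ ∞ := fun h => by rw [h] at h1; simp at h1
  rw [ENNReal.le_ofReal_iff_toReal_le ht (by norm_num)]
  have := ENNReal.toReal_mono ENNReal.one_ne_top h1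
  rw [ENNReal.toReal_one, ENNReal.toReal_add ht ht] at this
  linarith

/-- Two triangles on a common side cover the larger of their difference of oriented areas. -/
lemma volume_two (a b c d a' b' : ℝ) {U : Set (ℝ × ℝ)} (h1 : mat a c b d '' tri ⊆ U)
    (h2 : mat a a' b b' '' tri ⊆ U) :
    ENNReal.ofReal (|(a * d - c * b) - (a * b' - a' * b)| / 2) ≤ volume U := by
  have key : ∀ x : ℝ, ENNReal.ofReal |x| * volume tri = ENNReal.ofReal (|x| / 2) := fun x => by
    rw [volume_tri, ← ENNReal.ofReal_mul (abs_nonneg x)]; ring_nf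
  obtain ⟨D, hD⟩ : ∃ D, D = a * d - c * b := ⟨_, rfl⟩
  obtain ⟨D', hD'⟩ : ∃ D', D' = a * b' - a' * b := ⟨_, rfl⟩
  rw [← hD, ← hD']
  have v1 : volume (mat a c b d '' tri) = ENNReal.ofReal (|D| / 2) := by
    rw [volume_mat_image, key, hD]
  have v2 : volume (mat a a' b b' '' tri) = ENNReal.ofReal (|D'| / 2) := by
    rw [volume_mat_image, key, hD']
  rcases le_or_gt 0 (D * D') with h | h
  · have hle : |D - D'| ≤ max |D| |D'| := by
      rcases mul_nonneg_iff.1 h with ⟨p, q⟩ | ⟨p, q⟩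
      · rw [abs_of_nonneg p, abs_of_nonneg q]
        exact abs_le.2 ⟨by linarith [le_max_right D D'], by linarith [le_max_left D D']⟩
      · rw [abs_of_nonpos p, abs_of_nonpos q]
        exact abs_le.2 ⟨by linarith [le_max_left (-D) (-D')], by linarith [le_max_right (-D) (-D')]⟩
    rcases le_max_iff.1 hle with h' | h'
    · exact (ENNReal.ofReal_le_ofReal (by linarith)).trans (v1 ▸ measure_mono h1)
    · exact (ENNReal.ofReal_le_ofReal (by linarith)).trans (v2 ▸ measure_mono h2)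
  · have hm : NullMeasurableSet (mat a a' b b' '' tri) volume :=
      ((isCompact_tri.image (LinearMap.continuous_of_finiteDimensional _))).measurableSet.nullMeasurableSet
    have hd : AEDisjoint volume (mat a c b d '' tri) (mat a a' b b' '' tri) := by
      have h0 : volume (mat a c b d '' {v : ℝ × ℝ | v.2 = 0}) = 0 := by
        rw [volume_mat_image, volume_line_zero, mul_zero]
      refine measure_mono_null ?_ h0
      rintro w ⟨⟨v, ⟨-, hv, -⟩, rfl⟩, v', ⟨-, hv', -⟩, he⟩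
      refine ⟨v, ?_, rfl⟩
      have e1 := congrArg Prod.fst he
      have e2 := congrArg Prod.snd he
      simp only [mat_apply] at e1 e2
      have e3 : D * v.2 = D' * v'.2 := by rw [hD, hD']; linear_combination b * e1 - a * e2
      show v.2 = 0
      by_contra hne
      have hv2 : 0 < v.2 := lt_of_le_of_ne hv (Ne.symm hne)
      have h4 : D * v.2 * D ≤ 0 := by
        rw [e3]
        linarith [mul_nonpos_of_nonpos_of_nonneg h.le hv']
      have hD0 : D ≠ 0 := by rintro rfl; simp at h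
      nlinarith [mul_pos (mul_self_pos.2 hD0) hv2]
    have hs : |D - D'| ≤ |D| + |D'| := abs_sub _ _
    calc ENNReal.ofReal (|D - D'| / 2)
        ≤ ENNReal.ofReal (|D| / 2) + ENNReal.ofReal (|D'| / 2) := by
          rw [← ENNReal.ofReal_add (by positivity) (by positivity)]
          exact ENNReal.ofReal_le_ofReal (by linarith)
      _ = volume (mat a c b d '' tri ∪ mat a a' b b' '' tri) := by
          rw [measure_union₀ hm hd, v1, v2]
      _ ≤ volume U := measure_mono (union_subset h1 h2)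

/-- Orthonormal coordinates of the plane orthogonal to a unit vector. -/
lemma exists_frame {u : E3} (hu : ‖u‖ = 1) :
    ∃ (e f : E3) (ψ : ↥(plane u) ≃ᵐ ℝ × ℝ), MeasurePreserving ψ ∧
      (∀ x, ψ (projPlane u x) = (⟪e, x⟫, ⟪f, x⟫)) ∧
      ∀ p q : E3, ⟪e, p⟫ * ⟪f, q⟫ - ⟪e, q⟫ * ⟪f, p⟫ = ⟪cross p q, u⟫ := by
  have : Fact (finrank ℝ E3 = 2 + 1) := ⟨by simp⟩
  have hu0 : u ≠ 0 := fun h => by rw [h, norm_zero] at hu; exact zero_ne_one hu
  have hdim : finrank ℝ ↥(plane u) = 2 := Submodule.finrank_orthogonal_span_singleton hu0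
  obtain ⟨z, hz⟩ := Module.finrank_pos_iff_exists_ne_zero.1 (by omega : 0 < finrank ℝ ↥(plane u))
  obtain ⟨e, he⟩ : ∃ e : E3, e = ‖(z : E3)‖⁻¹ • (z : E3) := ⟨_, rfl⟩
  have hz' : (z : E3) ≠ 0 := fun h => hz (Submodule.coe_eq_zero.1 h)
  have hen : ‖e‖ = 1 := he ▸ norm_smul_inv_norm hz'
  have hue : ⟪u, e⟫ = 0 :=
    Submodule.mem_orthogonal_singleton_iff_inner_right.1 (he ▸ (plane u).smul_mem _ z.2)
  have inn : ∀ a b : E3, ⟪a, b⟫ = a 0 * b 0 + a 1 * b 1 + a 2 * b 2 := fun a b => by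
    simp [PiLp.inner_apply, Fin.sum_univ_three, mul_comm]
  have c0 : ∀ a b : E3, cross a b 0 = a 1 * b 2 - a 2 * b 1 := fun a b => by simp [cross]
  have c1 : ∀ a b : E3, cross a b 1 = a 2 * b 0 - a 0 * b 2 := fun a b => by simp [cross]
  have c2 : ∀ a b : E3, cross a b 2 = a 0 * b 1 - a 1 * b 0 := fun a b => by simp [cross]
  have hue' : u 0 * e 0 + u 1 * e 1 + u 2 * e 2 = 0 := by rw [← inn]; exact hue
  have hee : e 0 * e 0 + e 1 * e 1 + e 2 * e 2 = 1 := by
    rw [← inn, real_inner_self_eq_norm_sq, hen, one_pow]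
  have huu : u 0 * u 0 + u 1 * u 1 + u 2 * u 2 = 1 := by
    rw [← inn, real_inner_self_eq_norm_sq, hu, one_pow]
  have hfn : ‖cross u e‖ = 1 := by
    have h : ‖cross u e‖ ^ 2 = 1 := by
      rw [← real_inner_self_eq_norm_sq, inn, c0, c1, c2]
      linear_combination (e 0 * e 0 + e 1 * e 1 + e 2 * e 2) * huu + hee
        - (u 0 * e 0 + u 1 * e 1 + u 2 * e 2) * hue'
    exact (pow_eq_one_iff_of_nonneg (norm_nonneg _) two_ne_zero).1 h
  have hef : ⟪e, cross u e⟫ = 0 := by rw [inn, c0, c1, c2]; ring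
  have huf : ⟪u, cross u e⟫ = 0 := by rw [inn, c0, c1, c2]; ring
  obtain ⟨ψ, hψ, hψx⟩ := exists_coords hu0 hen hfn hef hue huf
  refine ⟨e, cross u e, ψ, hψ, hψx, fun p q => ?_⟩
  simp only [inn, c0, c1, c2]
  linear_combination
    ((p 1 * q 2 - p 2 * q 1) * u 0 + (p 2 * q 0 - p 0 * q 2) * u 1
      + (p 0 * q 1 - p 1 * q 0) * u 2) * hee
    - ((p 1 * q 2 - p 2 * q 1) * e 0 + (p 2 * q 0 - p 0 * q 2) * e 1
      + (p 0 * q 1 - p 1 * q 0) * e 2) * hue'

lemma coords_triangle {u e f : E3} {ψ : ↥(plane u) ≃ᵐ ℝ × ℝ}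
    (hψ : ∀ x, ψ (projPlane u x) = (⟪e, x⟫, ⟪f, x⟫)) (c p q : E3) :
    ψ '' (projPlane u '' triangle c p q) = (fun v => (⟪e, c⟫, ⟪f, c⟫) + v) ''
      (mat ⟪e, p⟫ ⟪e, q⟫ ⟪f, p⟫ ⟪f, q⟫ '' tri) := by
  simp only [triangle, image_image]
  refine image_congr fun v _ => ?_
  rw [hψ]
  simp [mat_apply, inner_add_right, real_inner_smul_right, mul_comm]

/-- A lower bound for the area of the shadow of a set containing two triangles on a common side. -/
lemma le_shadow {u : E3} (hu : ‖u‖ = 1) {K : Set E3} {c p q r : E3} (h1 : triangle c p q ⊆ K)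
    (h2 : triangle c p r ⊆ K) :
    ENNReal.ofReal (|⟪cross p q, u⟫ - ⟪cross p r, u⟫| / 2)
      ≤ planeArea u (projPlane u '' K) := by
  obtain ⟨e, f, ψ, hψm, hψ, hdet⟩ := exists_frame hu
  have hv : planeArea u (projPlane u '' K) = volume (ψ '' (projPlane u '' K)) := by
    rw [planeArea, ← hψm.measure_preimage_equiv (ψ '' (projPlane u '' K)),
      preimage_image_eq _ ψ.injective]
  obtain ⟨w, hw⟩ : ∃ w : ℝ × ℝ, w = (⟪e, c⟫, ⟪f, c⟫) := ⟨_, rfl⟩
  rw [hv, ← volume_translate_image (-w) (ψ '' (projPlane u '' K))]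
  have key : ∀ q', triangle c p q' ⊆ K → mat ⟪e, p⟫ ⟪e, q'⟫ ⟪f, p⟫ ⟪f, q'⟫ '' tri
      ⊆ (fun v => -w + v) '' (ψ '' (projPlane u '' K)) := by
    intro q' hq' v hv'
    refine ⟨w + v, image_mono (image_mono hq') ?_, by simp⟩
    rw [coords_triangle hψ, hw]
    exact mem_image_of_mem _ hv'
  have h := volume_two ⟪e, p⟫ ⟪f, p⟫ ⟪e, q⟫ ⟪f, q⟫ ⟪e, r⟫ ⟪f, r⟫ (key q h1) (key r h2)
  rw [← hdet, ← hdet]
  exact h

/-- A cylinder whose oblique section is a triangle. -/
lemma exists_cylinder (c p q w : E3) (hw : w ≠ 0) :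
    ∃ (u : E3) (B : Set ↥(plane u)), ‖u‖ = 1 ∧ MeasurableSet B ∧
      (∀ x : E3, (∃ r : ℝ, x - r • w ∈ triangle c p q) → projPlane u x ∈ B) ∧
      planeArea u B ≤ ENNReal.ofReal (|⟪cross p q, w⟫| / ‖w‖ / 2) := by
  obtain ⟨u, hu⟩ : ∃ u, u = ‖w‖⁻¹ • w := ⟨_, rfl⟩
  have hun : ‖u‖ = 1 := hu ▸ norm_smul_inv_norm hw
  obtain ⟨e, f, ψ, hψm, hψ, hdet⟩ := exists_frame hun
  refine ⟨u, projPlane u '' triangle c p q, hun, ?_, ?_, ?_⟩
  · refine ((isCompact_tri.image ?_).image ?_).measurableSet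
    · fun_prop
    · exact (plane u).orthogonalProjectionOnto.continuous
  · rintro x ⟨r, hr⟩
    refine ⟨_, hr, ?_⟩
    have hwu : w ∈ (plane u)ᗮ := by
      refine Submodule.le_orthogonal_orthogonal _ ?_
      rw [Submodule.mem_span_singleton]
      exact ⟨‖w‖, by rw [hu, smul_smul, mul_inv_cancel₀ (norm_ne_zero_iff.2 hw), one_smul]⟩
    have h0 : (plane u).orthogonalProjectionOnto w = 0 :=
      Submodule.orthogonalProjectionOnto_eq_zero_iff.2 hwu
    simp [projPlane, map_sub, map_smul, h0]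
  · rw [planeArea, ← preimage_image_eq (projPlane u '' triangle c p q) ψ.injective]
    rw [hψm.measure_preimage_equiv, coords_triangle hψ, volume_translate_image, volume_mat_image,
      volume_tri, ← ENNReal.ofReal_mul (abs_nonneg _), hdet, hu, real_inner_smul_right, abs_mul,
      abs_inv, abs_norm]
    exact ENNReal.ofReal_le_ofReal (le_of_eq (by ring))

end

end Vale.Agent.P243.Fan
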