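import Vale.Agent.P243.Fan.Area

/-!
# P243: the tetrahedron and the lower bound for all of its shadows
-/

namespace Vale.Agent.P243.Fan

open MeasureTheory Set
open Vale.Agent.P243.Bundle (E3 plane projPlane planeArea tri)
open scoped RealInnerProductSpace

noncomputable section

/-- The tetrahedron of height `7/5` on two orthogonal segments of length `2`. -/
def body : Set E3 :=
  {x | x 0 + 5 / 7 * x 2 ≤ 1 ∧ -(x 0) + 5 / 7 * x 2 ≤ 1 ∧ x 1 ≤ 5 / 7 * x 2 ∧ -(x 1) ≤ 5 / 7 * x 2}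

lemma convex_body : Convex ℝ body := by
  rintro x ⟨a0, a1, a2, a3⟩ y ⟨b0, b1, b2, b3⟩ s t hs ht hst
  refine ⟨?_, ?_, ?_, ?_⟩ <;> simp <;> nlinarith

lemma isCompact_body : IsCompact body := by
  have hc : ∀ i, Continuous (fun x : E3 => x i) := fun i => PiLp.continuous_apply 2 _ i
  refine Metric.isCompact_of_isClosed_isBounded ?_ ?_
  · exact (isClosed_le ((hc 0).add (continuous_const.mul (hc 2))) continuous_const).inter
      ((isClosed_le ((hc 0).neg.add (continuous_const.mul (hc 2))) continuous_const).inter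
        ((isClosed_le (hc 1) (continuous_const.mul (hc 2))).inter
          (isClosed_le (hc 1).neg (continuous_const.mul (hc 2)))))
  · refine (Metric.isBounded_closedBall (x := (0 : E3)) (r := 3)).subset ?_
    rintro x ⟨h0, h1, h2, h3⟩
    rw [Metric.mem_closedBall, dist_zero_right, EuclideanSpace.norm_eq,
      Real.sqrt_le_left (by norm_num), Fin.sum_univ_three]
    simp only [Real.norm_eq_abs, sq_abs]
    nlinarith

lemma interior_body_nonempty : (interior body).Nonempty := by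
  have hc : ∀ i, Continuous (fun x : E3 => x i) := fun i => PiLp.continuous_apply 2 _ i
  have ho : IsOpen {x : E3 | x 0 + 5 / 7 * x 2 < 1 ∧ -(x 0) + 5 / 7 * x 2 < 1
      ∧ x 1 < 5 / 7 * x 2 ∧ -(x 1) < 5 / 7 * x 2} :=
    (isOpen_lt ((hc 0).add (continuous_const.mul (hc 2))) continuous_const).inter
      ((isOpen_lt ((hc 0).neg.add (continuous_const.mul (hc 2))) continuous_const).inter
        ((isOpen_lt (hc 1) (continuous_const.mul (hc 2))).inter
          (isOpen_lt (hc 1).neg (continuous_const.mul (hc 2)))))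
  refine ⟨!₂[0, 0, 7 / 10], interior_maximal ?_ ho ?_⟩
  · rintro x ⟨h0, h1, h2, h3⟩
    exact ⟨h0.le, h1.le, h2.le, h3.le⟩
  · refine ⟨?_, ?_, ?_, ?_⟩ <;> simp <;> norm_num

/-- The vertices. -/
def vA : E3 := !₂[1, 0, 0]
/-- The vertices. -/
def vB : E3 := !₂[-1, 0, 0]
/-- The vertices. -/
def vC : E3 := !₂[0, 1, 7 / 5]
/-- The vertices. -/
def vD : E3 := !₂[0, -1, 7 / 5]

lemma mem_vA : vA ∈ body := by refine ⟨?_, ?_, ?_, ?_⟩ <;> simp [vA]
lemma mem_vB : vB ∈ body := by refine ⟨?_, ?_, ?_, ?_⟩ <;> simp [vB]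
lemma mem_vC : vC ∈ body := by refine ⟨?_, ?_, ?_, ?_⟩ <;> simp [vC]
lemma mem_vD : vD ∈ body := by refine ⟨?_, ?_, ?_, ?_⟩ <;> simp [vD]

lemma triangle_subset {c p q : E3} (hc : c ∈ body) (hp : p ∈ body) (hq : q ∈ body) :
    triangle c (p - c) (q - c) ⊆ body := by
  rintro x ⟨v, ⟨h0, h1, h2⟩, rfl⟩
  obtain ⟨c0, c1, c2, c3⟩ := hc
  obtain ⟨p0, p1, p2, p3⟩ := hp
  obtain ⟨q0, q1, q2, q3⟩ := hq
  have a := sub_nonneg.2 h2
  refine ⟨?_, ?_, ?_, ?_⟩ <;> simp <;> nlinarith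

/-- If all seven shadow forms of a direction are below `M`, so is its length. -/
lemma form_bound {a b c M : ℝ} (hM : 0 ≤ M) (hc : 2 * |c| ≤ M) (hab : |a| + |b| ≤ M)
    (hac : |a| + |c| ≤ M) (hbc : |b| + |c| ≤ M) : a ^ 2 + b ^ 2 + (7 / 5 * c) ^ 2 ≤ M ^ 2 := by
  have e : a ^ 2 + b ^ 2 + (7 / 5 * c) ^ 2 = |a| ^ 2 + |b| ^ 2 + 49 / 25 * |c| ^ 2 := by
    rw [sq_abs, sq_abs, sq_abs]; ring
  rw [e]
  have ha := abs_nonneg a
  have hb := abs_nonneg b
  have hc0 := abs_nonneg c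
  generalize |a| = p at *
  generalize |b| = q at *
  generalize |c| = r at *
  nlinarith [mul_nonneg ha hb, mul_nonneg hc0 (sub_nonneg.2 hc), mul_nonneg (sub_nonneg.2 hac)
    (sub_nonneg.2 hbc), mul_nonneg (sub_nonneg.2 hab) (add_nonneg ha hb),
    mul_nonneg (sub_nonneg.2 hab) hM, mul_nonneg hc0 hM, mul_nonneg (sub_nonneg.2 hab) hc0]

lemma eq_abs {X k : ℝ} (h : X = 2 * k ∨ X = -(2 * k)) : |X| / 2 = |k| := by
  rcases h with rfl | rfl <;> simp [abs_mul]

/-- Every shadow of the tetrahedron has area at least `7/5`. -/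
theorem le_shadow_body {u : E3} (hu : ‖u‖ = 1) :
    ENNReal.ofReal (7 / 5) ≤ planeArea u (projPlane u '' body) := by
  obtain ⟨S, hS⟩ : ∃ S, S = planeArea u (projPlane u '' body) := ⟨_, rfl⟩
  rw [← hS]
  by_contra! hlt
  have hSt : S ≠ ⊤ := hlt.ne_top
  obtain ⟨R, hR⟩ : ∃ R, R = S.toReal := ⟨_, rfl⟩
  have hR0 : 0 ≤ R := hR ▸ ENNReal.toReal_nonneg
  have hR1 : R < 7 / 5 := by
    rw [hR]; exact (ENNReal.lt_ofReal_iff_toReal_lt hSt).1 hlt
  have get : ∀ {c p q r : E3}, c ∈ body → p ∈ body → q ∈ body → r ∈ body → ∀ k : ℝ,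
      |⟪cross (p - c) (q - c), u⟫ - ⟪cross (p - c) (r - c), u⟫| / 2 = |k| → |k| ≤ R := by
    intro c p q r hc hp hq hr k hk
    have h := le_shadow hu (triangle_subset hc hp hq) (triangle_subset hc hp hr)
    rw [hk, ← hS, ENNReal.ofReal_le_iff_le_toReal hSt, ← hR] at h
    exact h
  have inn : ∀ a b : E3, ⟪a, b⟫ = a 0 * b 0 + a 1 * b 1 + a 2 * b 2 := fun a b => by
    simp [PiLp.inner_apply, Fin.sum_univ_three, mul_comm]
  obtain ⟨a, ha⟩ : ∃ a, a = u 0 := ⟨_, rfl⟩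
  obtain ⟨b, hb⟩ : ∃ b, b = u 1 := ⟨_, rfl⟩
  obtain ⟨c, hc⟩ : ∃ c, c = 5 / 7 * u 2 := ⟨_, rfl⟩
  have f1 := get mem_vB mem_vA mem_vC mem_vD (7 / 5 * (2 * c)) (eq_abs (by
    simp [inn, cross, vA, vB, vC, vD, ha, hb, hc]; first | (left; ring1) | (right; ring1)))
  have f2 := get mem_vA mem_vC mem_vB mem_vD (7 / 5 * (a + b)) (eq_abs (by
    simp [inn, cross, vA, vB, vC, vD, ha, hb, hc]; first | (left; ring1) | (right; ring1)))
  have f3 := get mem_vA mem_vD mem_vB mem_vC (7 / 5 * (a - b)) (eq_abs (by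
    simp [inn, cross, vA, vB, vC, vD, ha, hb, hc]; first | (left; ring1) | (right; ring1)))
  have f4 := get mem_vB mem_vA mem_vC mem_vB (7 / 5 * (c - b)) (eq_abs (by
    simp [inn, cross, vA, vB, vC, vD, ha, hb, hc]; first | (left; ring1) | (right; ring1)))
  have f5 := get mem_vB mem_vA mem_vD mem_vB (7 / 5 * (b + c)) (eq_abs (by
    simp [inn, cross, vA, vB, vC, vD, ha, hb, hc]; first | (left; ring1) | (right; ring1)))
  have f6 := get mem_vC mem_vD mem_vA mem_vC (7 / 5 * (a + c)) (eq_abs (by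
    simp [inn, cross, vA, vB, vC, vD, ha, hb, hc]; first | (left; ring1) | (right; ring1)))
  have f7 := get mem_vC mem_vD mem_vB mem_vC (7 / 5 * (a - c)) (eq_abs (by
    simp [inn, cross, vA, vB, vC, vD, ha, hb, hc]; first | (left; ring1) | (right; ring1)))
  rw [abs_le] at f1 f2 f3 f4 f5 f6 f7
  obtain ⟨M, hM⟩ : ∃ M, M = 5 / 7 * R := ⟨_, rfl⟩
  have h := form_bound (a := a) (b := b) (c := c) (M := M) (by linarith)
    (by rcases abs_choice c with h | h <;> rw [h] <;> linarith [f1.1, f1.2])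
    (by rcases abs_choice a with h | h <;> rcases abs_choice b with h' | h' <;> rw [h, h'] <;>
      linarith [f2.1, f2.2, f3.1, f3.2])
    (by rcases abs_choice a with h | h <;> rcases abs_choice c with h' | h' <;> rw [h, h'] <;>
      linarith [f6.1, f6.2, f7.1, f7.2])
    (by rcases abs_choice b with h | h <;> rcases abs_choice c with h' | h' <;> rw [h, h'] <;>
      linarith [f4.1, f4.2, f5.1, f5.2])
  have h1 : a ^ 2 + b ^ 2 + (7 / 5 * c) ^ 2 = 1 := by
    have := real_inner_self_eq_norm_sq u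
    rw [inn, hu, one_pow] at this
    rw [ha, hb, hc]; linear_combination this
  have h2 : M < 1 := by linarith
  have h3 : M ^ 2 < 1 := pow_lt_one₀ (by linarith) h2 two_ne_zero
  linarith

end

end Vale.Agent.P243.Fan
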