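import Vale.Agent.P243.Fan.Algebra

/-!
# P243: the cells of a fan and the sum of their areas
-/

namespace Vale.Agent.P243.Fan

noncomputable section

/-- Width of a cell. -/
def step (n : ℕ) : ℝ := 2 / n

/-- Left end of a cell. -/
def node (n i : ℕ) : ℝ := -1 + i * step n

/-- Height of the base triangle of a cell. -/
def cut (m : ℝ) (n i : ℕ) : ℝ := tau |m| (node n i) + 7 * |m| * step n

/-- The coordinates `(x, y, w)` belong to the cylinder of the `i`th cell of the fan of tilt `m`. -/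
def InCell (m : ℝ) (n i : ℕ) (x y w : ℝ) : Prop :=
  0 ≤ y - m / 2 * (1 + node n i ^ 2) * x - node n i * (w - m * node n i * x) + 2 * |m| * step n ^ 2 ∧
    y - m / 2 * (1 + node n i ^ 2) * x - node n i * (w - m * node n i * x) + 2 * |m| * step n ^ 2
      ≤ step n * (w - m * node n i * x + 4 * |m| * step n) ∧
    w - m * node n i * x + 4 * |m| * step n ≤ cut m n i

lemma step_pos {n : ℕ} (hn : 0 < n) : 0 < step n := by
  rw [step]; positivity

lemma node_mem {n i : ℕ} (hi : i < n) : |node n i| ≤ 1 ∧ node n i + step n ≤ 1 := by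
  have hn : (0 : ℝ) < n := by exact_mod_cast (Nat.zero_le i).trans_lt hi
  have h1 : ((i : ℝ) + 1) ≤ n := by exact_mod_cast hi
  have h2 : ((i : ℝ) + 1) * step n ≤ (n : ℝ) * step n :=
    mul_le_mul_of_nonneg_right h1 (by rw [step]; positivity)
  have h3 : (n : ℝ) * step n = 2 := by rw [step]; field_simp
  have h4 : 0 ≤ (i : ℝ) * step n := by rw [step]; positivity
  have h5 : 0 ≤ step n := by rw [step]; positivity
  refine ⟨abs_le.2 ⟨?_, ?_⟩, ?_⟩ <;> rw [node] <;> linarith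

lemma exists_node {n : ℕ} (hn : 0 < n) {s : ℝ} (hs : |s| ≤ 1) :
    ∃ i < n, 0 ≤ s - node n i ∧ s - node n i ≤ step n := by
  have hd := step_pos hn
  obtain ⟨hs1, hs2⟩ := abs_le.1 hs
  obtain ⟨k, hk⟩ : ∃ k, k = ⌊(s + 1) / step n⌋₊ := ⟨_, rfl⟩
  have hk0 : (k : ℝ) ≤ (s + 1) / step n := hk ▸ Nat.floor_le (div_nonneg (by linarith) hd.le)
  have hk1 : (s + 1) / step n < k + 1 := hk ▸ Nat.lt_floor_add_one _
  rw [le_div_iff₀ hd] at hk0
  rw [div_lt_iff₀ hd] at hk1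
  rcases lt_or_ge k n with h | h
  · exact ⟨k, h, by rw [node]; linarith, by rw [node]; linarith⟩
  · refine ⟨n - 1, by omega, ?_⟩
    have h1 : ((n - 1 : ℕ) : ℝ) = (n : ℝ) - 1 := by
      rw [Nat.cast_sub hn, Nat.cast_one]
    have h3 : (n : ℝ) * step n = 2 := by
      have : (0 : ℝ) < n := by exact_mod_cast hn
      rw [step]; field_simp
    have h4 : (n : ℝ) * step n ≤ k * step n :=
      mul_le_mul_of_nonneg_right (by exact_mod_cast h) hd.le
    rw [node, h1]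
    constructor <;> linarith

lemma quartic_step {s a d : ℝ} (hs : |s| ≤ 1) (ha : |a| ≤ 1) (hd : |s - a| ≤ d) :
    s ^ 2 + s ^ 4 ≤ a ^ 2 + a ^ 4 + 6 * d := by
  have h : s ^ 2 + s ^ 4 - (a ^ 2 + a ^ 4) = (s - a) * ((s + a) * (1 + s ^ 2 + a ^ 2)) := by ring
  have h1 : |(s + a) * (1 + s ^ 2 + a ^ 2)| ≤ 6 := by
    rw [abs_mul, abs_of_nonneg (show 0 ≤ 1 + s ^ 2 + a ^ 2 by positivity)]
    calc |s + a| * (1 + s ^ 2 + a ^ 2) ≤ 2 * 3 := by
          refine mul_le_mul ((abs_add_le s a).trans (by linarith)) ?_ (by positivity) (by norm_num)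
          linarith [(sq_le_one_iff_abs_le_one s).2 hs, (sq_le_one_iff_abs_le_one a).2 ha]
      _ = 6 := by norm_num
  have h2 := abs_mul (s - a) ((s + a) * (1 + s ^ 2 + a ^ 2))
  have h3 := mul_le_mul hd h1 (abs_nonneg _) ((abs_nonneg _).trans hd)
  linarith [le_abs_self ((s - a) * ((s + a) * (1 + s ^ 2 + a ^ 2)))]

/-- A short line of a fan lies in the cylinder of one of the cells. -/
lemma exists_cell {m x y w s t : ℝ} {n : ℕ} (hn : 0 < n) (hm : |m| ≤ 1) (hx : |x| ≤ 1)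
    (hs : |s| ≤ 1) (ht : 0 ≤ t) (htt : t ≤ tau |m| s) (hw : w = t + m * s * x)
    (hy : y = s * t + m / 2 * (1 + s ^ 2) * x) : ∃ i < n, InCell m n i x y w := by
  obtain ⟨i, hi, hd0, hd1⟩ := exists_node hn hs
  obtain ⟨d, hd⟩ : ∃ d, d = s - node n i := ⟨_, rfl⟩
  rw [← hd] at hd0 hd1
  have hD := step_pos hn
  have hmx : |m * x| ≤ |m| := by
    rw [abs_mul]; exact mul_le_of_le_one_right (abs_nonneg m) hx
  obtain ⟨q1, q2⟩ := abs_le.1 hmx
  have eb : w - m * node n i * x = t + m * x * d := by rw [hd, hw]; ring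
  have ea : y - m / 2 * (1 + node n i ^ 2) * x - node n i * (w - m * node n i * x)
      = d * t + m * x * (d ^ 2 / 2) := by rw [hd, hy, hw]; ring
  have hd2 : d ^ 2 ≤ step n ^ 2 := pow_le_pow_left₀ hd0 hd1 2
  have hdD : step n * d ≤ step n ^ 2 := by rw [sq]; exact mul_le_mul_of_nonneg_left hd1 hD.le
  refine ⟨i, hi, ?_, ?_, ?_⟩
  · rw [ea]
    nlinarith [mul_nonneg hd0 ht, mul_le_mul_of_nonneg_right q1 (show 0 ≤ d ^ 2 / 2 by positivity),
      mul_le_mul_of_nonneg_left hd2 (abs_nonneg m)]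
  · rw [ea, eb]
    nlinarith [mul_le_mul_of_nonneg_right hd1 ht,
      mul_le_mul_of_nonneg_right q2 (show 0 ≤ d ^ 2 / 2 by positivity),
      mul_le_mul_of_nonneg_right q1 (mul_nonneg hD.le hd0),
      mul_le_mul_of_nonneg_left hd2 (abs_nonneg m), mul_le_mul_of_nonneg_left hdD (abs_nonneg m)]
  · rw [eb, cut]
    have h1 := mul_le_mul_of_nonneg_right q2 hd0
    have h2 := mul_le_mul_of_nonneg_left hd1 (abs_nonneg m)
    have h3 := quartic_step (a := node n i) hs (node_mem hi).1 (d := step n)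
      (by rw [← hd, abs_of_nonneg hd0]; exact hd1)
    have h4 : |m| ^ 2 ≤ |m| := by rw [sq]; exact mul_le_of_le_one_left (abs_nonneg m) hm
    have h5 := mul_le_mul_of_nonneg_right h4 hD.le
    have h6 := mul_le_mul_of_nonneg_left h3 (show 0 ≤ |m| ^ 2 / 4 by positivity)
    have h7 := mul_nonneg (abs_nonneg m) hD.le
    simp only [tau] at htt ⊢
    linarith

/-- Squared length of an axis of a fan, minus one. -/
def tilt (m s : ℝ) : ℝ := (m / 2 * (1 + s ^ 2)) ^ 2 + (7 / 5 * (m * s)) ^ 2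

lemma tilt_neg (m s : ℝ) : tilt (-m) s = tilt m s := by rw [tilt, tilt]; ring

lemma tilt_nonneg (m s : ℝ) : 0 ≤ tilt m s := by rw [tilt]; positivity

lemma inv_sqrt_le {E : ℝ} (h0 : 0 ≤ E) (h1 : E ≤ 1) :
    1 / √(1 + E) ≤ 1 - E / 2 + E ^ 2 := by
  have hp : 0 ≤ 1 - E / 2 + E ^ 2 := by nlinarith
  rw [div_le_iff₀ (by positivity)]
  rw [← Real.sqrt_sq hp, ← Real.sqrt_mul (sq_nonneg _), Real.one_le_sqrt]
  nlinarith [sq_nonneg E, mul_nonneg h0 (sq_nonneg E), mul_nonneg (sq_nonneg E) (sq_nonneg E)]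

/-- The area of one cell, to second order in the tilt. -/
lemma cell_cost {m d a : ℝ} (hm : 0 < m) (hm1 : m ≤ 1 / 32) (hd : 0 ≤ d) (hdm : d ≤ m ^ 2)
    (ha : |a| ≤ 1) :
    (tau m a + 7 * m * d) ^ 2 / √(1 + tilt m a)
      ≤ 1 / 4 + m ^ 2 * (-1 / 32 - 23 / 400 * a ^ 2 + 7 / 32 * a ^ 4) + 20 * m ^ 3 := by
  have ha2 : a ^ 2 ≤ 1 := (sq_le_one_iff_abs_le_one a).2 ha
  have ha4 : a ^ 4 ≤ 1 := by
    rw [show a ^ 4 = (a ^ 2) ^ 2 by ring]; exact pow_le_one₀ (sq_nonneg a) ha2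
  obtain ⟨P, hP⟩ : ∃ P, P = (1 + a ^ 2) ^ 2 / 4 + (7 / 5 * a) ^ 2 := ⟨_, rfl⟩
  obtain ⟨Q, hQ⟩ : ∃ Q, Q = (a ^ 2 + a ^ 4) / 4 := ⟨_, rfl⟩
  have hP0 : 0 ≤ P := hP ▸ by positivity
  have hQ0 : 0 ≤ Q := hQ ▸ by positivity
  have hP3 : P ≤ 3 := by rw [hP]; linarith
  have hQ1 : Q ≤ 1 / 2 := by rw [hQ]; linarith
  obtain ⟨D, hD⟩ : ∃ D, D = m ^ 2 * Q + 4 * m ^ 3 + 7 * m * d := ⟨_, rfl⟩
  have hE : tilt m a = m ^ 2 * P := by rw [tilt, hP]; ring
  have hm2 : 0 ≤ m ^ 2 := sq_nonneg m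
  have hm3 : 0 ≤ m ^ 3 := by positivity
  have hmd : m * d ≤ m ^ 3 := by
    calc m * d ≤ m * m ^ 2 := mul_le_mul_of_nonneg_left hdm hm.le
      _ = m ^ 3 := by ring
  have hDle : D ≤ m ^ 2 * Q + 11 * m ^ 3 := by rw [hD]; linarith
  have hm31 : 11 * m ^ 3 ≤ m ^ 2 / 2 := by
    have := mul_le_mul_of_nonneg_left hm1 hm2; linarith
  have hQm := mul_le_mul_of_nonneg_left hQ1 hm2
  have hD0 : 0 ≤ D := by
    have := mul_nonneg hm2 hQ0
    have := mul_nonneg hm.le hd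
    rw [hD]; linarith
  have hDm : D ≤ m ^ 2 := by linarith
  obtain ⟨E, hE'⟩ : ∃ E, E = m ^ 2 * P := ⟨_, rfl⟩
  have hE0 : 0 ≤ E := hE' ▸ mul_nonneg hm2 hP0
  have hE3 : E ≤ 3 * m ^ 2 := by
    rw [hE']; linarith [mul_le_mul_of_nonneg_left hP3 hm2]
  have hm21 : m ^ 2 ≤ m / 32 := by
    rw [sq]; linarith [mul_le_mul_of_nonneg_left hm1 hm.le]
  have hE1 : E ≤ 1 := by linarith
  have hT : tau m a + 7 * m * d = 1 / 2 + D := by rw [tau, hD, hQ]; ring
  rw [hT, hE, ← hE', div_eq_mul_one_div]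
  refine (mul_le_mul_of_nonneg_left (inv_sqrt_le hE0 hE1) (sq_nonneg _)).trans ?_
  have k1 : D ^ 2 ≤ (m ^ 2) ^ 2 := pow_le_pow_left₀ hD0 hDm 2
  have k2 : E ^ 2 ≤ (3 * m ^ 2) ^ 2 := pow_le_pow_left₀ hE0 hE3 2
  have k3 : D + D ^ 2 ≤ 1 := by
    have := pow_le_pow_left₀ hD0 (show D ≤ 1 / 2 by linarith) 2
    linarith
  have k4 := mul_le_mul_of_nonneg_right k3 (sq_nonneg E)
  have k5 : 0 ≤ (D + D ^ 2) * (E / 2) := by positivity
  have k6 : (m ^ 2) ^ 2 ≤ m ^ 3 / 32 := by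
    linarith [mul_le_mul_of_nonneg_left hm1 hm3]
  have k7 : 1 / 4 + D - E / 8
      ≤ 1 / 4 + m ^ 2 * (-1 / 32 - 23 / 400 * a ^ 2 + 7 / 32 * a ^ 4) + 11 * m ^ 3 := by
    have : m ^ 2 * Q - E / 8 = m ^ 2 * (-1 / 32 - 23 / 400 * a ^ 2 + 7 / 32 * a ^ 4) := by
      rw [hE', hP, hQ]; ring
    linarith
  linarith

/-- The Riemann sum of the second order coefficient is negative. -/
lemma coef_sum {n : ℕ} (hn : 1000 ≤ n) :
    ∑ i ∈ Finset.range n, step n * (-1 / 32 - 23 / 400 * node n i ^ 2 + 7 / 32 * node n i ^ 4)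
      ≤ -1 / 75 + 4 * step n := by
  have hn0 : (0 : ℝ) < n := by exact_mod_cast (show 0 < n by omega)
  have hns : (n : ℝ) * step n = 2 := by rw [step]; field_simp
  have hd : 0 < step n := step_pos (by omega)
  have hd1 : step n ≤ 1 := by
    rw [step, div_le_one hn0]; exact_mod_cast (show 2 ≤ n by omega)
  let g : ℕ → ℝ := fun i => -(1 / 32) * node n i - 23 / 400 * (node n i ^ 3 / 3)
    + 7 / 32 * (node n i ^ 5 / 5)
  have hcell : ∀ i ∈ Finset.range n,
      step n * (-1 / 32 - 23 / 400 * node n i ^ 2 + 7 / 32 * node n i ^ 4)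
        ≤ g (i + 1) - g i + 2 * step n ^ 2 := by
    intro i hi
    obtain ⟨ha, -⟩ := node_mem (Finset.mem_range.1 hi)
    have hsucc : node n (i + 1) = node n i + step n := by rw [node, node]; push_cast; ring
    simp only [g, hsucc]
    generalize node n i = a at ha ⊢
    generalize step n = d at hd hd1 ⊢
    obtain ⟨a1, a2⟩ := abs_le.1 ha
    have ha2 : a ^ 2 ≤ 1 := (sq_le_one_iff_abs_le_one a).2 ha
    have ha3 : -1 ≤ a ^ 3 := by
      have : |a ^ 3| ≤ 1 := by rw [abs_pow]; exact pow_le_one₀ (abs_nonneg a) ha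
      exact (abs_le.1 this).1
    have c3 : ((a + d) ^ 3 - a ^ 3) / 3 ≤ d * a ^ 2 + 2 * d ^ 2 := by
      have h : ((a + d) ^ 3 - a ^ 3) / 3 = d * a ^ 2 + d ^ 2 * (a + d / 3) := by ring
      rw [h]
      linarith [mul_le_mul_of_nonneg_left (show a + d / 3 ≤ 2 by linarith) (sq_nonneg d)]
    have c5 : d * a ^ 4 - 3 * d ^ 2 ≤ ((a + d) ^ 5 - a ^ 5) / 5 := by
      have h : ((a + d) ^ 5 - a ^ 5) / 5
          = d * a ^ 4 + d ^ 2 * (2 * a ^ 3 + 2 * d * a ^ 2 + d ^ 2 * a + d ^ 3 / 5) := by ring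
      have h1 : -(d ^ 2) ≤ d ^ 2 * a := by
        linarith [mul_le_mul_of_nonneg_left a1 (sq_nonneg d)]
      have h2 : d ^ 2 ≤ 1 := pow_le_one₀ hd.le hd1
      have h3 : 0 ≤ 2 * d * a ^ 2 := by positivity
      have h4 : 0 ≤ d ^ 3 / 5 := by positivity
      rw [h]
      linarith [mul_le_mul_of_nonneg_left
        (show -3 ≤ 2 * a ^ 3 + 2 * d * a ^ 2 + d ^ 2 * a + d ^ 3 / 5 by linarith) (sq_nonneg d)]
    linarith [sq_nonneg d]
  refine (Finset.sum_le_sum hcell).trans (le_of_eq ?_)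
  rw [Finset.sum_add_distrib, Finset.sum_range_sub g, Finset.sum_const, Finset.card_range,
    nsmul_eq_mul]
  have h0 : node n 0 = -1 := by simp [node]
  have h1 : node n n = 1 := by rw [node, hns]; norm_num
  simp only [g, h0, h1]
  linear_combination (2 * step n) * hns

/-- The total area of one fan is less than a quarter of the height. -/
lemma fan_sum {m : ℝ} {n : ℕ} (hm : 0 < m) (hm1 : m ≤ 1 / 4096) (hn : 1000 ≤ n)
    (hd : step n ≤ m ^ 2) :
    ∑ i ∈ Finset.range n, step n * (cut m n i ^ 2 / √(1 + tilt m (node n i)))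
      ≤ 1 / 2 - m ^ 2 / 400 := by
  have hd0 : 0 < step n := step_pos (by omega)
  calc ∑ i ∈ Finset.range n, step n * (cut m n i ^ 2 / √(1 + tilt m (node n i)))
      ≤ ∑ i ∈ Finset.range n, (m ^ 2 * (step n
          * (-1 / 32 - 23 / 400 * node n i ^ 2 + 7 / 32 * node n i ^ 4))
          + step n * (1 / 4 + 20 * m ^ 3)) := by
        refine Finset.sum_le_sum fun i hi => ?_
        have h := mul_le_mul_of_nonneg_left (cell_cost hm (by linarith) hd0.le hd
          (node_mem (Finset.mem_range.1 hi)).1) hd0.le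
        rw [cut, abs_of_pos hm]
        linarith
    _ ≤ 1 / 2 - m ^ 2 / 400 := by
        rw [Finset.sum_add_distrib, ← Finset.mul_sum, Finset.sum_const, Finset.card_range,
          nsmul_eq_mul]
        have hc := mul_le_mul_of_nonneg_left (coef_sum hn) (sq_nonneg m)
        have hn0 : (0 : ℝ) < n := by exact_mod_cast (show 0 < n by omega)
        have hns : (n : ℝ) * step n = 2 := by rw [step]; field_simp
        have hm3 : m ^ 3 ≤ m ^ 2 / 4096 := by
          linarith [mul_le_mul_of_nonneg_left hm1 (sq_nonneg m)]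
        have hmd : m ^ 2 * step n ≤ m ^ 2 / 4096 := by
          have : step n ≤ 1 / 4096 := hd.trans
            ((pow_le_pow_left₀ hm.le hm1 2).trans (by norm_num))
          linarith [mul_le_mul_of_nonneg_left this (sq_nonneg m)]
        have he : (n : ℝ) * (step n * (1 / 4 + 20 * m ^ 3)) = 1 / 2 + 40 * m ^ 3 := by
          linear_combination (1 / 4 + 20 * m ^ 3) * hns
        linarith

end

end Vale.Agent.P243.Fan
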