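import Vale.Agent.P243.Fan.Cost
import Vale.Agent.P243.Fan.Body

/-!
# P243: a cylinder covering of total area below half the least shadow
-/

namespace Vale.Agent.P243.Fan

open MeasureTheory Set
open Vale.Agent.P243.Bundle (E3 plane projPlane planeArea IsCylinderCover Bases tri)
open scoped RealInnerProductSpace

noncomputable section

lemma inner_coords (a b : E3) : ⟪a, b⟫ = a 0 * b 0 + a 1 * b 1 + a 2 * b 2 := by
  simp [PiLp.inner_apply, Fin.sum_univ_three, mul_comm]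

lemma norm_coords (w : E3) : ‖w‖ = √(w 0 ^ 2 + w 1 ^ 2 + w 2 ^ 2) := by
  rw [EuclideanSpace.norm_eq, Fin.sum_univ_three]
  simp only [Real.norm_eq_abs, sq_abs]

lemma cut_pos {m : ℝ} {n : ℕ} (hn : 0 < n) (i : ℕ) : 0 < cut m n i := by
  have := step_pos hn
  rw [cut, tau]
  positivity

/-- The base coordinates of a cell lie in the standard triangle. -/
lemma mem_tri {a b D T : ℝ} (hD : 0 < D) (hT : 0 < T) (h0 : 0 ≤ a) (h1 : a ≤ D * b) (h2 : b ≤ T) :
    (a / (D * T), b / T - a / (D * T)) ∈ tri := by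
  refine ⟨div_nonneg h0 (mul_pos hD hT).le, ?_, ?_⟩
  · have h : a / (D * T) ≤ b / T := by
      rw [div_le_div_iff₀ (mul_pos hD hT) hT]
      calc a * T ≤ D * b * T := mul_le_mul_of_nonneg_right h1 hT.le
        _ = b * (D * T) := by ring
    exact sub_nonneg.2 h
  · have := (div_le_one hT).2 h2
    linarith

lemma first_cylinder {m : ℝ} {n : ℕ} (hn : 0 < n) (i : ℕ) :
    ∃ (u : E3) (B : Set ↥(plane u)), ‖u‖ = 1 ∧ MeasurableSet B ∧
      (∀ x : E3, InCell m n i (x 0) (x 1) (5 / 7 * x 2) → projPlane u x ∈ B) ∧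
      planeArea u B ≤
        ENNReal.ofReal (7 / 10 * (step n * (cut m n i ^ 2 / √(1 + tilt m (node n i))))) := by
  obtain ⟨s, hs⟩ : ∃ s, s = node n i := ⟨_, rfl⟩
  obtain ⟨D, hD⟩ : ∃ D, D = step n := ⟨_, rfl⟩
  obtain ⟨T, hT⟩ : ∃ T, T = cut m n i := ⟨_, rfl⟩
  have hD0 : 0 < D := hD ▸ step_pos hn
  have hT0 : 0 < T := hT ▸ cut_pos hn i
  obtain ⟨w, hw⟩ : ∃ w : E3, w = !₂[1, m / 2 * (1 + s ^ 2), 7 / 5 * (m * s)] := ⟨_, rfl⟩
  have hw0 : w ≠ 0 := fun h => by simpa [hw] using congrArg (fun z : E3 => z 0) h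
  obtain ⟨u, B, hu, hB, hcov, harea⟩ :=
    exists_cylinder !₂[0, -(4 * |m| * D * s) - 2 * |m| * D ^ 2, -(28 / 5 * |m| * D)]
      !₂[0, (D + s) * T, 7 / 5 * T] !₂[0, s * T, 7 / 5 * T] w hw0
  refine ⟨u, B, hu, hB, fun x hx => hcov x ⟨x 0, ?_⟩, harea.trans (ENNReal.ofReal_le_ofReal ?_)⟩
  · obtain ⟨h0, h1, h2⟩ := hx
    rw [← hs, ← hD] at h0 h1 h2
    rw [← hT] at h2
    refine ⟨_, mem_tri hD0 hT0 h0 h1 h2, ?_⟩
    ext j
    fin_cases j <;> simp [hw] <;> field_simp <;> ring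
  · rw [← hs, ← hD, ← hT, norm_coords, tilt]
    simp only [inner_coords, cross, hw]
    simp
    have e : (D + s) * T * (7 / 5 * T) - 7 / 5 * T * (s * T) = 7 / 5 * (D * T ^ 2) := by ring
    rw [e, abs_of_nonneg (by positivity)]
    apply le_of_eq
    rw [show (1 : ℝ) + ((m / 2 * (1 + s ^ 2)) ^ 2 + (7 / 5 * (m * s)) ^ 2)
      = 1 + (m / 2 * (1 + s ^ 2)) ^ 2 + (7 / 5 * (m * s)) ^ 2 by ring]
    ring

lemma second_cylinder {m : ℝ} {n : ℕ} (hn : 0 < n) (i : ℕ) :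
    ∃ (u : E3) (B : Set ↥(plane u)), ‖u‖ = 1 ∧ MeasurableSet B ∧
      (∀ x : E3, InCell m n i (x 1) (x 0) (1 - 5 / 7 * x 2) → projPlane u x ∈ B) ∧
      planeArea u B ≤
        ENNReal.ofReal (7 / 10 * (step n * (cut m n i ^ 2 / √(1 + tilt m (node n i))))) := by
  obtain ⟨s, hs⟩ : ∃ s, s = node n i := ⟨_, rfl⟩
  obtain ⟨D, hD⟩ : ∃ D, D = step n := ⟨_, rfl⟩
  obtain ⟨T, hT⟩ : ∃ T, T = cut m n i := ⟨_, rfl⟩
  have hD0 : 0 < D := hD ▸ step_pos hn
  have hT0 : 0 < T := hT ▸ cut_pos hn i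
  obtain ⟨w, hw⟩ : ∃ w : E3, w = !₂[m / 2 * (1 + s ^ 2), 1, -(7 / 5 * (m * s))] := ⟨_, rfl⟩
  have hw0 : w ≠ 0 := fun h => by simpa [hw] using congrArg (fun z : E3 => z 1) h
  obtain ⟨u, B, hu, hB, hcov, harea⟩ :=
    exists_cylinder !₂[-(4 * |m| * D * s) - 2 * |m| * D ^ 2, 0, 7 / 5 + 28 / 5 * |m| * D]
      !₂[(D + s) * T, 0, -(7 / 5 * T)] !₂[s * T, 0, -(7 / 5 * T)] w hw0
  refine ⟨u, B, hu, hB, fun x hx => hcov x ⟨x 1, ?_⟩, harea.trans (ENNReal.ofReal_le_ofReal ?_)⟩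
  · obtain ⟨h0, h1, h2⟩ := hx
    rw [← hs, ← hD] at h0 h1 h2
    rw [← hT] at h2
    refine ⟨_, mem_tri hD0 hT0 h0 h1 h2, ?_⟩
    ext j
    fin_cases j <;> simp [hw] <;> field_simp <;> ring
  · rw [← hs, ← hD, ← hT, norm_coords, tilt]
    simp only [inner_coords, cross, hw]
    simp
    have e : -(7 / 5 * T * (s * T)) + (D + s) * T * (7 / 5 * T) = 7 / 5 * (D * T ^ 2) := by ring
    rw [e, abs_of_nonneg (by positivity)]
    apply le_of_eq
    rw [show (1 : ℝ) + ((m / 2 * (1 + s ^ 2)) ^ 2 + (7 / 5 * (m * s)) ^ 2)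
      = (m / 2 * (1 + s ^ 2)) ^ 2 + 1 + (7 / 5 * (m * s)) ^ 2 by ring]
    ring

/-- The two fans of cells: a covering of total area below `7 / 10`. -/
lemma exists_fans {m : ℝ} {n : ℕ} (hm : 0 < m) (hm1 : m ≤ 1 / 4096) (hn : 1000 ≤ n)
    (hd : step n ≤ m ^ 2) :
    ∃ (k : ℕ) (u : Fin k → E3) (B : Bases u), IsCylinderCover body u B ∧
      ∑ i, planeArea (u i) (B i) ≤ ENNReal.ofReal (7 / 5 * (1 / 2 - m ^ 2 / 400)) := by
  classical
  have hn0 : 0 < n := by omega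
  have c1 := fun i : Fin n => first_cylinder (m := m) hn0 i
  have c2 := fun i : Fin n => second_cylinder (m := -m) hn0 i
  choose u1 S1 hu1 hm1' hc1 hr1 using c1
  choose u2 S2 hu2 hm2' hc2 hr2 using c2
  let cyl : Fin n ⊕ Fin n → Σ u : E3, Set ↥(plane u) := fun i => match i with
    | Sum.inl p => ⟨u1 p, S1 p⟩
    | Sum.inr p => ⟨u2 p, S2 p⟩
  let e := Fintype.equivFin (Fin n ⊕ Fin n)
  have hunit : ∀ i, ‖(cyl i).1‖ = 1 := by
    rintro (p | p)
    · exact hu1 p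
    · exact hu2 p
  have hmeas : ∀ i, MeasurableSet (cyl i).2 := by
    rintro (p | p)
    · exact hm1' p
    · exact hm2' p
  refine ⟨Fintype.card (Fin n ⊕ Fin n), fun k => (cyl (e.symm k)).1, fun k => (cyl (e.symm k)).2,
    ⟨fun k => hunit _, fun k => hmeas _, fun x hx => ?_⟩, ?_⟩
  · obtain ⟨h0, h1, h2, h3⟩ := hx
    have hx0 : |x 0| ≤ 1 - 5 / 7 * x 2 := abs_le.2 ⟨by linarith, by linarith⟩
    have hx1 : |x 1| ≤ 5 / 7 * x 2 := abs_le.2 ⟨by linarith, by linarith⟩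
    have hb0 : |x 0| ≤ 1 := by linarith [abs_nonneg (x 1)]
    have hb1 : |x 1| ≤ 1 := by linarith [abs_nonneg (x 0)]
    obtain ⟨i, hi⟩ : ∃ i, projPlane (cyl i).1 x ∈ (cyl i).2 := by
      rcases fans hm (by linarith) hx0 hx1 with ⟨s, t, hs, ht, htt, hw, hy⟩ | ⟨s, t, hs, ht, htt, hw, hy⟩
      · obtain ⟨i, hi, hin⟩ := exists_cell hn0 (by rw [abs_of_pos hm]; linarith) hb0 hs ht
          (by rwa [abs_of_pos hm]) hw hy
        exact ⟨Sum.inl ⟨i, hi⟩, hc1 ⟨i, hi⟩ x hin⟩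
      · obtain ⟨i, hi, hin⟩ := exists_cell (m := -m) hn0 (by rw [abs_neg, abs_of_pos hm]; linarith)
          hb1 hs ht (by rwa [abs_neg, abs_of_pos hm]) hw hy
        exact ⟨Sum.inr ⟨i, hi⟩, hc2 ⟨i, hi⟩ x hin⟩
    obtain ⟨k, rfl⟩ := e.symm.surjective i
    exact ⟨k, hi⟩
  · have hs := fan_sum hm hm1 hn hd
    obtain ⟨F, hF⟩ : ∃ F : ℕ → ℝ,
        F = fun i => 7 / 10 * (step n * (cut m n i ^ 2 / √(1 + tilt m (node n i)))) := ⟨_, rfl⟩
    have hF0 : ∀ i, 0 ≤ F i := fun i => by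
      have := step_pos hn0
      have := tilt_nonneg m (node n i)
      simp only [hF]
      positivity
    have hb : ∀ j, planeArea (cyl j).1 (cyl j).2
        ≤ ENNReal.ofReal (F (Sum.elim (fun p : Fin n => (p : ℕ)) (fun p : Fin n => (p : ℕ)) j)) := by
      rintro (p | p)
      · simp only [hF]; exact hr1 p
      · refine (hr2 p).trans (le_of_eq ?_)
        simp only [hF, cut, tilt_neg, abs_neg, Sum.elim_inr]
    calc ∑ k, planeArea (cyl (e.symm k)).1 (cyl (e.symm k)).2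
        = ∑ j, planeArea (cyl j).1 (cyl j).2 :=
          Equiv.sum_comp e.symm fun j => planeArea (cyl j).1 (cyl j).2
      _ ≤ ∑ j : Fin n ⊕ Fin n,
            ENNReal.ofReal (F (Sum.elim (fun p : Fin n => (p : ℕ)) (fun p : Fin n => (p : ℕ)) j)) :=
          Finset.sum_le_sum fun j _ => hb j
      _ ≤ ENNReal.ofReal (7 / 5 * (1 / 2 - m ^ 2 / 400)) := by
          rw [← ENNReal.ofReal_sum_of_nonneg (fun j _ => hF0 _)]
          refine ENNReal.ofReal_le_ofReal ?_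
          simp only [Fintype.sum_sum_type, Sum.elim_inl, Sum.elim_inr, Fin.sum_univ_eq_sum_range]
          simp only [hF]
          rw [← Finset.mul_sum]
          linarith

/-- Some convex body is covered by finitely many cylinders whose base areas sum to less than half
of every shadow of the body. -/
theorem exists_cover_below_half :
    ∃ K : Set E3, IsCompact K ∧ Convex ℝ K ∧ (interior K).Nonempty ∧
      ∃ (k : ℕ) (u : Fin k → E3) (B : Bases u), IsCylinderCover K u B ∧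
        ∃ A : ℝ, 0 < A ∧ (∀ v : E3, ‖v‖ = 1 → ENNReal.ofReal A ≤ planeArea v (projPlane v '' K)) ∧
          ∑ i, planeArea (u i) (B i) ≤ ENNReal.ofReal ((1 / 2 - 1 / 2 ^ 34) * A) := by
  obtain ⟨n, hn⟩ : ∃ n : ℕ, (2 : ℝ) ^ 25 ≤ n := exists_nat_ge _
  have hn0 : (0 : ℝ) < n := lt_of_lt_of_le (by norm_num) hn
  obtain ⟨k, u, B, hcov, hsum⟩ := exists_fans (m := 1 / 4096) (n := n) (by norm_num) le_rfl
    (by
      have : (1000 : ℝ) ≤ n := le_trans (by norm_num) hn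
      exact_mod_cast this)
    (by
      rw [step, div_le_iff₀ hn0]
      refine le_trans (by norm_num) (mul_le_mul_of_nonneg_left hn (by norm_num)))
  exact ⟨body, isCompact_body, convex_body, interior_body_nonempty, k, u, B, hcov, 7 / 5,
    by norm_num, fun v hv => le_shadow_body hv,
    hsum.trans (ENNReal.ofReal_le_ofReal (by norm_num))⟩

end

end Vale.Agent.P243.Fan
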